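import Vale.Agent.P042.H635.F1Sk
import Vale.Agent.P042.H258.NumG
import Vale.Agent.P042.H883.Frame

/-!
# P042: the numbers of the low part of (F1*) and (A*) at an instance
-/

set_option autoImplicit false
set_option linter.unusedSectionVars false

namespace Vale.Agent.P042.H168

open Finset
open Vale.Agent.P042.H635 (Lo qL scL m0I)
open Vale.Agent.P042.H739 (Wst)
open Vale.Agent.P042.H860 (Inst Ok Si lo)
open Vale.Agent.P042.H883 (JT snT ellT scT esN)

/-- the number of the scales of the low sites -/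
noncomputable def nsI (I : Inst) (kap : ℝ) : ℕ :=
  ⌊Real.log (2 * I.P ^ (2 - kap)) / Real.log 2⌋₊ + 1

section
variable {I : Inst} {kap : ℝ}

theorem lo_prime (i : Lo I kap) : (qL I kap i).Prime := (H860.mem_Typ.1 i.1.2).2.1

/-- the low sites are at most `P ^ (2 - kap)` -/
theorem lo_le (hP : 1 ≤ I.P) (i : Lo I kap) : (qL I kap i : ℝ) ≤ I.P ^ (2 - kap) := by
  have h1 : i.1.1 ∈ Wst I.K0 kap I.P := i.2
  unfold Wst at h1
  rw [mem_filter, mem_range] at h1
  have h2 : qL I kap i ≤ ⌊I.P ^ (2 - kap)⌋₊ := Nat.lt_succ_iff.1 h1.1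
  exact (Nat.le_floor_iff (Real.rpow_nonneg (by linarith) _)).1 h2

theorem lo_log_le (hP : 1 ≤ I.P) (i : Lo I kap) :
    Real.log (qL I kap i) ≤ (2 - kap) * Real.log I.P := by
  have h1 := Real.log_le_log (by exact_mod_cast (lo_prime i).pos) (lo_le hP i)
  rwa [Real.log_rpow (by linarith)] at h1

theorem lo_log_nonneg (i : Lo I kap) : 0 ≤ Real.log (qL I kap i) :=
  Real.log_nonneg (by exact_mod_cast (lo_prime i).one_lt.le)

/-- the scale of a low site -/
theorem sc_lt (hP : 1 ≤ I.P) (i : Lo I kap) : scL I kap i < nsI I kap := by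
  have hl2 : 0 < Real.log 2 := Real.log_pos (by norm_num)
  have h1 : esN (qL I kap i) - Real.log 2 ≤ Real.log (qL I kap i) :=
    H883.esN_le_log (lo_prime i).one_lt
  have h2 : esN (qL I kap i) = (scL I kap i : ℝ) * Real.log 2 := rfl
  have h3 := lo_log_le hP i
  have hP0 : 0 < I.P := by linarith
  have h4 : Real.log (2 * I.P ^ (2 - kap)) = Real.log 2 + (2 - kap) * Real.log I.P := by
    rw [Real.log_mul (by norm_num) (Real.rpow_pos_of_pos hP0 _).ne', Real.log_rpow hP0]
  unfold nsI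
  refine Nat.lt_succ_of_le (Nat.le_floor ?_)
  rw [le_div_iff₀ hl2, h4]
  linarith

/-- the size of the last scale -/
theorem ns_le (hP : 1 ≤ I.P) (hkap : kap ≤ 2) :
    Real.exp (Real.log 2 * nsI I kap) ≤ 4 * I.P ^ (2 - kap) := by
  have hl2 : 0 < Real.log 2 := Real.log_pos (by norm_num)
  have hP0 : 0 < I.P := by linarith
  have h0 : 0 < I.P ^ (2 - kap) := Real.rpow_pos_of_pos hP0 _
  have h1 : 1 ≤ I.P ^ (2 - kap) := Real.one_le_rpow hP (by linarith)
  have h2 : 0 ≤ Real.log (2 * I.P ^ (2 - kap)) / Real.log 2 :=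
    div_nonneg (Real.log_nonneg (by linarith)) hl2.le
  have h3 : (nsI I kap : ℝ) ≤ Real.log (2 * I.P ^ (2 - kap)) / Real.log 2 + 1 := by
    unfold nsI
    push_cast
    linarith [Nat.floor_le h2]
  calc Real.exp (Real.log 2 * nsI I kap)
      ≤ Real.exp (Real.log 2 * (Real.log (2 * I.P ^ (2 - kap)) / Real.log 2 + 1)) :=
        Real.exp_le_exp.2 (mul_le_mul_of_nonneg_left h3 hl2.le)
    _ = Real.exp (Real.log (2 * I.P ^ (2 - kap)) + Real.log 2) := by
        rw [mul_add, mul_one, mul_div_cancel₀ _ hl2.ne']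
    _ = 4 * I.P ^ (2 - kap) := by
        rw [Real.exp_add, Real.exp_log (by positivity), Real.exp_log (by norm_num)]
        ring

/-- the number of the sites of one scale -/
theorem card_sc (s : ℕ) :
    ((univ.filter fun i : Lo I kap => snT (scT i.1) = s).card : ℝ) ≤
      Real.exp (Real.log 2 * s) := by
  have h1 : (univ.filter fun i : Lo I kap => snT (scT i.1) = s).card ≤ (Icc 1 (2 ^ s)).card := by
    refine card_le_card_of_injOn (fun i => qL I kap i) ?_ ?_
    · intro i hi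
      have hi' := (mem_filter.1 (mem_coe.1 hi)).2
      have h2 : Nat.clog 2 (qL I kap i) = s := hi'
      rw [mem_coe, mem_Icc]
      exact ⟨(lo_prime i).pos, h2 ▸ Nat.le_pow_clog (by norm_num) (qL I kap i)⟩
    · intro i _ j _ h
      exact Subtype.ext (Subtype.ext h)
  rw [Nat.card_Icc, Nat.add_sub_cancel] at h1
  have h2 : Real.exp (Real.log 2 * s) = 2 ^ s := by
    rw [Real.exp_mul, Real.exp_log (by norm_num), Real.rpow_natCast]
  rw [h2]
  exact_mod_cast h1

end

/-- **the fields `num` and `e` of `H635.F1Par`** -/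
theorem numE_I {γ ρ cr kap β' g' γz : ℝ} (m : ℕ) (hγ : 0 < γ) (hcr : 0 < cr)
    (hρ : cr * Real.log 2 < ρ) (h1 : 3 * γ + cr * Real.log 2 < Real.log 2 / 2)
    (hg : 19 * γ < g' * Real.log 2)
    (h2 : (2 - kap) * (1 / 2 + 5 * γ / Real.log 2) + β' * cr < 1) (hk0 : 0 ≤ kap)
    (hk2 : kap ≤ 2) (hγz : γz * Real.log 2 ≤ γ) (hgz : γz < g') :
    ∃ K00 : ℕ, ∀ {θ : ℝ}, 0 < θ → ∃ P0 : ℝ, 1 ≤ P0 ∧ ∀ I : Inst, P0 ≤ I.P → K00 ≤ I.K0 →
      ∀ rho e : Si I.K0 I.C1 I.P → ℝ, (∀ i, 0 ≤ rho i) →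
      (∀ i, rho i ≤ Real.exp (-(1 / 2) * esN i.1 + γz * esN i.1)) →
      (∀ i, e i ≤ Real.exp (-esN i.1 + γz * esN i.1)) →
      (∀ b0 : ℕ, (b0 : ℝ) ≤ 2 * I.P ^ β' → ∀ r : JT I.K0 I.C1 I.P → ℝ, (∀ j, 0 ≤ r j) →
        (∀ j, r j ≤ min (Real.exp (cr * ellT j)) ((b0 : ℝ) ^ cr)) →
        ∃ Rs : ℕ → ℝ, H258.F1Num m (Real.log 2) γ ρ g' (24 * θ * I.P) snT
          (fun i : Lo I kap => scT i.1) (fun i : Lo I kap => rho i.1)
          (fun i => Real.exp (γ * scL I kap i)) (fun i => Real.log (qL I kap i)) r Rs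
          (nsI I kap) (m0I I θ) ⌊2 * θ * I.P / Real.log I.P⌋₊) ∧
      ∀ j : JT I.K0 I.C1 I.P, 2 * ∑ i : Lo I kap, (if scT i.1 = j then e i.1 else 0) ≤
        Real.exp (g' * ellT j) / 4 := by
  have hl2 : 0 < Real.log 2 := Real.log_pos (by norm_num)
  obtain ⟨s0, hs0⟩ := H258.f1d_numbers (b := Real.log 2) (γ := γ) (ρ := ρ) (cr := cr) (κ := kap)
    (β' := β') (g0 := g') (C := 4) m hl2 hγ hcr (by norm_num) hρ h1 hg h2
  obtain ⟨s1, hs1⟩ := H258.e_num hgz
  refine ⟨2 ^ (max s0 s1), ?_⟩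
  intro θ hθ
  obtain ⟨P0, hP0, hmain⟩ := hs0 (θ := 24 * θ) (θ1 := θ) (θ2 := 2 * θ) (by positivity)
    (by linarith) (by positivity) (by linarith)
  refine ⟨max P0 3, le_trans (by norm_num) (le_max_right _ _), ?_⟩
  intro I hP hK rho e hrho0 hrho he
  have hP1 : P0 ≤ I.P := (le_max_left _ _).trans hP
  have hP3 : 3 ≤ I.P := (le_max_right _ _).trans hP
  have hPge : 1 ≤ I.P := by linarith
  have hlP : 0 ≤ Real.log I.P := Real.log_nonneg hPge
  have hes : ∀ i : Si I.K0 I.C1 I.P, esN i.1 = (snT (scT i) : ℝ) * Real.log 2 := fun _ => rfl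
  constructor
  · intro b0 hb0 r hr0 hr
    refine hmain I.P hP1 (J := JT I.K0 I.C1 I.P) snT (fun i : Lo I kap => scT i.1)
      (fun i : Lo I kap => rho i.1) (fun i => Real.exp (γ * scL I kap i))
      (fun i => Real.log (qL I kap i)) (nsI I kap) (m0I I θ) b0 H883.snT_inj
      (fun j => H883.snT_lo ((Nat.pow_le_pow_right (by norm_num) (le_max_left _ _)).trans hK) j)
      (fun i => sc_lt hPge i) (ns_le hPge hk2) (fun s => card_sc s) (fun i => hrho0 i.1) ?_
      (fun i => (Real.exp_pos _).le) (fun i => le_rfl) (fun i => lo_log_nonneg i) ?_ hb0 ?_ r hr0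
      ?_
    · intro i
      refine (hrho i.1).trans (Real.exp_le_exp.2 ?_)
      rw [hes]
      have h3 : γz * Real.log 2 * (snT (scT i.1) : ℝ) ≤ γ * (snT (scT i.1) : ℝ) :=
        mul_le_mul_of_nonneg_right hγz (Nat.cast_nonneg _)
      linarith
    · intro i
      have h3 := lo_log_le hPge i
      have h4 : (2 - kap) * Real.log I.P ≤ 3 * Real.log I.P :=
        mul_le_mul_of_nonneg_right (by linarith) hlP
      linarith
    · unfold m0I
      exact Nat.floor_le (div_nonneg (by positivity) hlP)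
    · intro j
      have h3 : ellT j = Real.log 2 * (snT j : ℝ) := by
        unfold H883.ellT H883.snT
        ring
      rw [← h3]
      exact hr j
  · refine hs1 snT ellT (fun i : Lo I kap => scT i.1) (fun i : Lo I kap => e i.1)
      (fun j => rfl) (fun j => H883.snT_lo ((Nat.pow_le_pow_right (by norm_num)
        (le_max_right _ _)).trans hK) j) (fun i => ?_) (fun j => ?_)
    · exact he i.1
    · have h3 : (univ.filter fun i : Lo I kap => scT i.1 = j) =
          univ.filter fun i : Lo I kap => snT (scT i.1) = snT j := by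
        refine filter_congr fun i _ => ?_
        exact ⟨fun h => by rw [h], fun h => H883.snT_inj h⟩
      rw [h3]
      refine (card_sc (snT j)).trans (le_of_eq ?_)
      unfold H883.ellT H883.snT
      rw [mul_comm]

end Vale.Agent.P042.H168
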