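import Vale.Agent.P042.H168.F1Law
import Vale.Agent.P042.H635.F1Core

/-!
# P042: the law slots `H635.SideLaw` at a cell of the state
-/

set_option autoImplicit false
set_option linter.unusedSectionVars false

namespace Vale.Agent.P042.H168

open Polynomial Finset Vale.Agent.P042.H461 Vale.Agent.P042.H858
open Vale.Agent.P042.H599 (cm Law)
open Vale.Agent.P042.H945 (SM kl2 klc ms cl rst)
open Vale.Agent.P042.H779 (marg m1 phi)
open Vale.Agent.P042.H779.Ab.Ll (len ThickG)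
open Vale.Agent.P042.H635 (lawc fcl SideLaw)
open Vale.Agent.P042.H359 (cellZ cellZ_eq cmass cmass_eq redZ)
open Vale.Agent.P042.H739 (cell)
open Vale.Agent.P042.H860 (rn)

section
variable {q : H362.FP} {W : Finset ℕ} {f : ℤ[X]} {N : ℕ} {G : ℤ → ℝ} {mu : ℕ → ℝ} {Dm Lq : ℝ}
  {q0 : ℕ} {w : ZMod q0} {z h0 : ℕ}

theorem CellSt.G_nonneg (h : CellSt q W f N G mu Dm Lq q0 w z h0) (n : ℤ) : 0 ≤ G n := by
  rw [h.hG n]
  split_ifs
  · exact mul_nonneg h.N0.le (h.one.nn _)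
  · exact le_rfl

theorem CellSt.cmass_pos (h : CellSt q W f N G mu Dm Lq q0 w z h0) :
    0 < cmass G q0 w z h0 := by
  rw [h.cmass_eq]
  exact mul_pos h.N0 h.ms_pos

theorem CellSt.f_nonneg (h : CellSt q W f N G mu Dm Lq q0 w z h0) (n : ℤ) :
    0 ≤ G n / cmass G q0 w z h0 := div_nonneg (h.G_nonneg n) h.cmass_pos.le

theorem cell_sub (h : CellSt q W f N G mu Dm Lq q0 w z h0) :
    cell q0 w (z : ℤ) h0 ⊆ Ioc (z : ℤ) (z + h0) := by
  rw [h.cell_eq]
  intro n hn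
  unfold H359.cellZ at hn
  obtain ⟨h1, _⟩ := mem_filter.1 hn
  obtain ⟨h2, h3⟩ := mem_Icc.1 h1
  rw [mem_Ioc]
  push_cast at h2 h3
  exact ⟨by linarith, h3⟩

theorem CellSt.cm_nonneg (h : CellSt q W f N G mu Dm Lq q0 w z h0) (p a : ℕ) :
    0 ≤ cm mu 1 N p a := by
  unfold H599.cm
  refine sum_nonneg fun j _ => ?_
  split_ifs
  · exact h.one.nn _
  · exact le_rfl

/-- the class masses of a modulus have sum one -/
theorem CellSt.cm_sum (h : CellSt q W f N G mu Dm Lq q0 w z h0) {p : ℕ} [NeZero p] :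
    ∑ x : ZMod p, cm mu 1 N p x.val = 1 := by
  classical
  have h1 := fun x : ZMod p => m1_rn (qs := fun _ : Unit => p) mu N () x
  calc ∑ x : ZMod p, cm mu 1 N p x.val
      = ∑ x : ZMod p, m1 (pf (rn fun _ : Unit => p) mu 1 N) () x :=
        sum_congr rfl fun x _ => (h1 x).symm
    _ = ∑ y, pf (rn fun _ : Unit => p) mu 1 N y := by
        unfold m1
        rw [sum_comm]
        refine sum_congr rfl fun y _ => ?_
        simp
    _ = 1 := by
        have h2 := sum_pf (rn fun _ : Unit => p) mu N (fun _ => 1)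
        simp only [mul_one] at h2
        rw [h2]
        exact h.one.law.sum

/-- a charged point charges its classes -/
theorem CellSt.ch (h : CellSt q W f N G mu Dm Lq q0 w z h0) {ι : Type} [Fintype ι]
    {qs : ι → ℕ} [∀ i, NeZero (qs i)] {n : ℤ} (hn : G n / cmass G q0 w z h0 ≠ 0) :
    H461.W (fun i (x : ZMod (qs i)) => cm mu 1 N (qs i) x.val) (redZ qs n) ≠ 0 := by
  have hG0 : G n ≠ 0 := fun h0 => hn (by rw [h0, zero_div])
  rw [h.hG n] at hG0
  by_cases h1 : 1 ≤ n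
  · rw [if_pos h1] at hG0
    have hmu : mu n.toNat ≠ 0 := fun h0 => hG0 (by rw [h0, mul_zero])
    obtain ⟨h2, h3⟩ := h.one.out _ hmu
    have hmu0 : 0 < mu n.toNat := lt_of_le_of_ne (h.one.nn _) (Ne.symm hmu)
    unfold H461.W
    rw [prod_ne_zero_iff]
    intro i _
    have h4 : (redZ qs n i).val = n.toNat % qs i := by
      have e1 : redZ qs n i = ((n.toNat : ℕ) : ZMod (qs i)) := by
        unfold H359.redZ
        have e2 : n = ((n.toNat : ℕ) : ℤ) := (Int.toNat_of_nonneg (by omega)).symm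
        conv_lhs => rw [e2]
        exact Int.cast_natCast _
      rw [e1, ZMod.val_natCast]
    refine ne_of_gt (lt_of_lt_of_le hmu0 ?_)
    beta_reduce
    rw [h4]
    unfold H599.cm
    have h5 : n.toNat - 1 ∈ range N := mem_range.2 (by omega)
    have h6 : 1 + (n.toNat - 1) = n.toNat := by omega
    have h7 := single_le_sum (f := fun j => if (1 + j) % qs i = n.toNat % qs i
      then mu (1 + j) else 0) (fun j _ => by
        split_ifs
        · exact h.one.nn _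
        · exact le_rfl) h5
    beta_reduce at h7
    rw [h6, if_pos rfl] at h7
    exact h7
  · rw [if_neg h1] at hG0
    exact absurd rfl hG0

/-- the sup of the normalised weight with at most `d` atoms -/
theorem CellSt.sup (h : CellSt q W f N G mu Dm Lq q0 w z h0) {ι : Type} [Fintype ι]
    {qs : ι → ℕ} [∀ i, NeZero (qs i)] (hq : ∀ i, qs i ∈ W) (hg : 0 ≤ q.g) {d : ℕ} {lm A1 : ℝ}
    (hlm : 0 ≤ lm) (hl : ∀ i, Real.log (qs i) ≤ lm)
    (hA : 2 * q0 * Real.exp (Real.log 2 + 32 * Dm + d * ((1 + q.g) * lm + Real.log 4)) ≤ A1)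
    (T : Finset ι) (x : ∀ i, ZMod (qs i)) (hT : T.card ≤ d)
    (hx : ∀ i ∈ T, 0 < cm mu 1 N (qs i) (x i).val) (n : ℤ) :
    (h0 : ℝ) * (G n / cmass G q0 w z h0 * ∏ i ∈ T, (cm mu 1 N (qs i) (x i).val)⁻¹) ≤ A1 := by
  have hc := h.cmass_pos
  have hh0 : (0 : ℝ) < h0 := by exact_mod_cast h.h00
  have hq0 : (0 : ℝ) < q0 := by exact_mod_cast h.q01
  have h1 : (h0 : ℝ) / cmass G q0 w z h0 ≤ 2 * q0 := by
    rw [div_le_iff₀ hc]
    have := h.ma
    nlinarith
  have h2 : G n ≤ Real.exp (Real.log 2 + 32 * Dm) := by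
    rw [Real.exp_add, Real.exp_log (by norm_num), h.hG n]
    split_ifs
    · exact h.one.cap _
    · positivity
  have h3 : ∏ i ∈ T, (cm mu 1 N (qs i) (x i).val)⁻¹ ≤
      Real.exp (d * ((1 + q.g) * lm + Real.log 4)) := by
    have h4 : ∀ i ∈ T, (cm mu 1 N (qs i) (x i).val)⁻¹ ≤
        Real.exp ((1 + q.g) * lm + Real.log 4) := by
      intro i hi
      have hp := h.hW _ (hq i)
      have hqi : (0 : ℝ) < qs i := by exact_mod_cast hp.pos
      rcases h.one.atom _ (hq i) (x i).val with h5 | h5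
      · exact absurd h5 (hx i hi).ne'
      · have h6 : Real.exp (-((1 + q.g) * Real.log (qs i) + Real.log 4)) ≤
            cm mu 1 N (qs i) (x i).val := by
          refine le_trans (le_of_eq ?_) h5
          rw [show -((1 + q.g) * Real.log (qs i) + Real.log 4) =
            Real.log (qs i) * (-q.g) - Real.log (qs i) - Real.log 4 by ring, Real.exp_sub,
            Real.exp_sub, Real.exp_log hqi, Real.exp_log (by norm_num), ← Real.rpow_def_of_pos hqi]
          field_simp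
        have h7 : (cm mu 1 N (qs i) (x i).val)⁻¹ ≤
            Real.exp ((1 + q.g) * Real.log (qs i) + Real.log 4) := by
          rw [← inv_inv (Real.exp ((1 + q.g) * Real.log (qs i) + Real.log 4)), ← Real.exp_neg]
          exact inv_anti₀ (Real.exp_pos _) h6
        refine h7.trans (Real.exp_le_exp.2 ?_)
        have h8 := mul_le_mul_of_nonneg_left (hl i) (by linarith : 0 ≤ 1 + q.g)
        linarith
    calc ∏ i ∈ T, (cm mu 1 N (qs i) (x i).val)⁻¹
        ≤ ∏ _i ∈ T, Real.exp ((1 + q.g) * lm + Real.log 4) :=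
          prod_le_prod (fun i _ => inv_nonneg.2 (h.cm_nonneg _ _)) h4
      _ = Real.exp ((1 + q.g) * lm + Real.log 4) ^ T.card := by rw [prod_const]
      _ ≤ Real.exp ((1 + q.g) * lm + Real.log 4) ^ d := by
          refine pow_le_pow_right₀ (Real.one_le_exp ?_) hT
          have h9 : 0 ≤ Real.log 4 := Real.log_nonneg (by norm_num)
          have h10 : 0 ≤ (1 + q.g) * lm := mul_nonneg (by linarith) hlm
          linarith
      _ = _ := by rw [← Real.exp_nat_mul]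
  have h4 : 0 ≤ ∏ i ∈ T, (cm mu 1 N (qs i) (x i).val)⁻¹ :=
    prod_nonneg fun i _ => inv_nonneg.2 (h.cm_nonneg _ _)
  calc (h0 : ℝ) * (G n / cmass G q0 w z h0 * ∏ i ∈ T, (cm mu 1 N (qs i) (x i).val)⁻¹)
      = (h0 : ℝ) / cmass G q0 w z h0 * (G n * ∏ i ∈ T, (cm mu 1 N (qs i) (x i).val)⁻¹) := by
        ring
    _ ≤ 2 * q0 * (Real.exp (Real.log 2 + 32 * Dm) *
          Real.exp (d * ((1 + q.g) * lm + Real.log 4))) :=
        mul_le_mul h1 (mul_le_mul h2 h3 h4 (Real.exp_pos _).le)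
          (mul_nonneg (h.G_nonneg n) h4) (by positivity)
    _ = 2 * q0 * Real.exp (Real.log 2 + 32 * Dm + d * ((1 + q.g) * lm + Real.log 4)) := by
        rw [← Real.exp_add]
    _ ≤ A1 := hA

/-- the constant `G0` of the level inequality -/
noncomputable def G0c (q : H362.FP) (N h0 q0 : ℕ) : ℝ :=
  Real.exp (q.be * Real.log q0 + cW q N h0 + Real.log 2)

/-- `exp (α + A) ≤ exp (γ sc)` -/
theorem LawNum.cost {ι : Type} [Fintype ι] [DecidableEq ι] {P : ℝ} {qs sc : ι → ℕ} {ns : ℕ}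
    {γ A0 Λ Ds del QM : ℝ} (L : LawNum q W N h0 q0 Dm Lq P qs sc ns γ A0 Λ Ds del QM) (i : ι) :
    Real.exp (H743.αq q.be q.ga qs i + H743.Aq q.g qs i) ≤ Real.exp (γ * sc i) := by
  refine Real.exp_le_exp.2 ?_
  have h1 := L.pin.gH i
  have h2 : 0 < Real.log 2 := Real.log_pos (by norm_num)
  linarith

/-- **the law slots of `H635.f1_core` at a cell of the state** -/
theorem sideLaw_cell {g C1 : ℝ} (hg : 0 < g) (hg1 : g ≤ 1) (hC1 : 1 ≤ C1) :
    ∃ l0 : ℝ, ∀ {ι : Type} [Fintype ι] [DecidableEq ι] {q : H362.FP} {W : Finset ℕ} {f : ℤ[X]}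
      {N : ℕ} {G : ℤ → ℝ} {mu : ℕ → ℝ} {Dm Lq : ℝ} {q0 : ℕ} {w : ZMod q0} {z h0 : ℕ} {P : ℝ}
      {qs sc : ι → ℕ} [∀ i, NeZero (qs i)] {ns : ℕ} {γ A0 Λ Ds del MT Θ : ℝ}, q.g = g →
      q.C1 = C1 → l0 ≤ Real.log P → CellSt q W f N G mu Dm Lq q0 w z h0 →
      LawNum q W N h0 q0 Dm Lq P qs sc ns γ A0 Λ Ds del (MT * Real.exp (Θ / 2)) →
      ∀ {m d : ℕ} {τ A1 lm : ℝ} {Pr : Finset ℕ}, q.be ≤ τ - 3 / (m : ℝ) →
      (∀ p ∈ Pr, ¬ p ∣ q0 ∧ (∀ i, qs i ≠ p) ∧
        (p ∈ W → (p : ℝ) ^ (-q.ga) ≤ (τ - 3 / (m : ℝ) - q.be) * Real.log p)) →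
      0 ≤ lm → (∀ i, Real.log (qs i) ≤ lm) →
      2 * q0 * Real.exp (Real.log 2 + 32 * Dm + d * ((1 + q.g) * lm + Real.log 4)) ≤ A1 →
      SideLaw (fun i (x : ZMod (qs i)) => cm mu 1 N (qs i) x.val)
        (H743.uq (V := fun i => ZMod (qs i)) qs) (redZ qs) (Real.log 2) γ A0 m d ns sc
        (fun i => Real.log (qs i)) (H743.Lq q.g qs) (H743.Aq q.g qs) (H743.αq q.be q.ga qs)
        (fun i => (qs i : ℝ) ^ (-q.g)) Λ 0 del (G0c q N h0 q0) τ
        (kapF q N h0 q0 (τ - 3 / (m : ℝ))) Pr MT Θ A1 h0 (z : ℤ) (cell q0 w (z : ℤ) h0)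
        (fun n => G n / cmass G q0 w z h0) := by
  obtain ⟨l0, hl0⟩ := thickG_cell hg hg1 hC1
  refine ⟨l0, ?_⟩
  intro ι _ _ q W f N G mu Dm Lq q0 w z h0 P qs sc _ ns γ A0 Λ Ds del MT Θ eg eC hl H L m d τ A1 lm
    Pr hbe hPr hlm hqlm hA
  refine ⟨cell_sub H, fun n _ => H.f_nonneg n, fun n _ hn => H.ch hn, fun T x hT hx n _ =>
    H.sup L.pin.qW L.pin.g0 hlm hqlm hA T x hT hx n, ?_⟩
  intro d' hd1 hdQ hdP
  have hd0 : (0 : ℝ) < d' := by exact_mod_cast hd1
  refine ⟨mul_pos (Real.exp_pos _) (Real.rpow_pos_of_pos hd0 _), ?_, ?_⟩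
  · unfold kapF G0c
    rw [mul_assoc, ← Real.rpow_add hd0, sub_add_cancel]
  · intro z' _ hz'
    exact hl0 eg eC hl H L hbe d' hd1 hdQ (fun p hpd => hPr p (hdP p hpd)) z' hz'

/-- the constant of the level inequality is bounded -/
theorem G0c_le (h : CellSt q W f N G mu Dm Lq q0 w z h0) (hbe : 0 ≤ q.be) :
    G0c q N h0 q0 ≤ Real.exp (q.be * (Real.log q0 + 6) + Real.log 2) := by
  refine Real.exp_le_exp.2 ?_
  have hh0 : (0 : ℝ) < h0 := by exact_mod_cast h.h00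
  have hN0 := h.N0
  have h1 : Real.log N - Real.log (h0 : ℝ) ≤ 5 := by
    rw [← Real.log_div hN0.ne' hh0.ne']
    have h2 : (N : ℝ) / h0 ≤ 100 := by
      rw [div_le_iff₀ hh0]
      exact_mod_cast h.hN
    have h3 := Real.log_le_log (div_pos hN0 hh0) h2
    have h4 : Real.log 100 ≤ 5 := by
      rw [Real.log_le_iff_le_exp (by norm_num)]
      have h5 : (2.7 : ℝ) ≤ Real.exp 1 := by linarith [Real.exp_one_gt_d9]
      calc (100 : ℝ) ≤ 2.7 ^ 5 := by norm_num
        _ ≤ Real.exp 1 ^ 5 := pow_le_pow_left₀ (by norm_num) h5 5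
        _ = Real.exp 5 := by rw [← Real.exp_nat_mul]; norm_num
    linarith
  unfold cW
  have h2 := mul_le_mul_of_nonneg_left h1 hbe
  linarith

end

/-! ### the cells of an instance -/

section
open Vale.Agent.P042.H860

variable {I : Inst} {κ : ℝ} {q : H362.FP} {κ' : Type} {fm : H599.Fam κ'} {Dm Lq : ℝ}

/-- the first cell of an instance is a cell of the state -/
theorem cellSt_1 (h : Ok I κ) (hK : I.K0 = max (max q.K0 I.R) (2 * I.k))
    (st : H362.StF1 (H362.WF q I.k I.R I.P) q fm I.f I.N I.mu Dm Lq) :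
    CellSt q (H362.WF q I.k I.R I.P) I.f I.N I.G I.mu Dm Lq I.q0 I.w I.z1 I.h0 where
  hG := h.hG
  one := st.toAtF
  ql := st.ql
  hW := fun p hp => by
    rw [WF_eq q I.k I.R I.K0 I.P hK, mem_Typ] at hp
    exact hp.2.1
  hq0 := fun p hp hd => by
    rw [WF_eq q I.k I.R I.K0 I.P hK, mem_Typ] at hp
    have h2 := h.tiny.mem_of_dvd_qnul hp.2.1 hd
    simp only [H739.Tst, mem_filter, mem_range] at h2
    omega
  q01 := h.q0_pos
  zN := h.z1N
  hN := h.hN
  ma := h.ma1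

/-- the second cell of an instance is a cell of the state -/
theorem cellSt_2 (h : Ok I κ) (hK : I.K0 = max (max q.K0 I.R) (2 * I.k))
    (st : H362.StF1 (H362.WF q I.k I.R I.P) q fm I.f I.N I.mu Dm Lq) :
    CellSt q (H362.WF q I.k I.R I.P) I.f I.N I.G I.mu Dm Lq I.q0 I.w' I.z2 I.h0 where
  hG := h.hG
  one := st.toAtF
  ql := st.ql
  hW := (cellSt_1 h hK st).hW
  hq0 := (cellSt_1 h hK st).hq0
  q01 := h.q0_pos
  zN := h.z2N
  hN := h.hN
  ma := h.ma2

end

end Vale.Agent.P042.H168
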