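import Vale.Agent.P042.H168.ThL
import Vale.Agent.P042.H860.Glue

/-!
# P042: the law slots of `H635.sideIn_of` at a cell of the state
-/

set_option autoImplicit false
set_option linter.unusedSectionVars false

namespace Vale.Agent.P042.H168

open Polynomial Finset Vale.Agent.P042.H461 Vale.Agent.P042.H858
open Vale.Agent.P042.H599 (cm Law)
open Vale.Agent.P042.H945 (SM kl2 klc ms cl rst)
open Vale.Agent.P042.H779 (marg m1 phi)
open Vale.Agent.P042.H779.Ab (ce gdw Di Ref At)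
open Vale.Agent.P042.H779.Ab.Ll (len ThickG)
open Vale.Agent.P042.H635 (lawc fcl)
open Vale.Agent.P042.H359 (cellZ cellZ_eq cmass cmass_eq redZ)
open Vale.Agent.P042.H739 (cell)
open Vale.Agent.P042.H860 (rn)

/-- the field `ql` of the state, at the laws of the cells of one window -/
theorem qlc_of_ql {W : Finset ℕ} (hW : ∀ p ∈ W, p.Prime) {q : H362.FP} {M : ℕ} {mu : ℕ → ℝ}
    {Dm Lq : ℝ} (hQ : H362.QL W q M mu Dm Lq) (law : Law mu 1 M) (nn : ∀ n, 0 ≤ mu n) {u v : ℕ}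
    (hu : 1 ≤ u) (hv : v ≤ M) (hDm : 0 ≤ Dm)
    (hV : (M : ℝ) ≤ Real.exp Dm * ((v + 1 - u : ℕ) : ℝ)) :
    H743.QLc mu M W (fun p => (p : ℝ) ^ (-q.g))
      (H743.cstF W q.be q.ga (q.be * ((Real.log M - Real.log ((v + 1 - u : ℕ) : ℝ)) + 1)))
      (Real.exp Lq) Dm ((v + 1 - u : ℕ) : ℝ) u v := by
  intro D w hD hDM _ hm hth
  have hDR : (0 : ℝ) < D := by exact_mod_cast hD
  have hr0 := H743.rst_nonneg (S := cl D w u v) (mu := mu) (N := M) nn
  have h1 := hQ D w u v (rst mu M (cl D w u v)) hD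
    ((Real.log_le_log hDR hDM).trans (le_of_eq (Real.log_exp _))) hu hv hV hm hth
    (H945.rst_law law hm) (fun n => hr0 hm n) (fun n => by
      have h2 := hr0 hm n
      have h3 : 1 ≤ Real.exp Dm := Real.one_le_exp hDm
      nlinarith)
  rw [H743.kl2_self] at h1
  have h3 : W.filter (fun p => ¬ p ∣ D) = W.filter fun p => Nat.Coprime p D :=
    Finset.filter_congr fun p hp => ((hW p hp).coprime_iff_not_dvd).symm
  rw [h3]
  unfold H362.costF at h1
  unfold H743.cstF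
  linarith

section
variable {ι : Type} [Fintype ι] [DecidableEq ι] {qs : ι → ℕ} [∀ i, NeZero (qs i)]

theorem red_rn (i : ι) (n : ℕ) : redZ qs (n : ℤ) i = rn qs i n := by
  unfold H359.redZ H860.rn
  exact Int.cast_natCast n

theorem rn_res (i : ι) (n m : ℕ) : rn qs i n = rn qs i m ↔ n ≡ m [MOD qs i] := by
  unfold H860.rn
  exact ZMod.natCast_eq_natCast_iff n m (qs i)

/-- the marginals of the image of the state are the class masses -/
theorem m1_rn (mu : ℕ → ℝ) (N : ℕ) (i : ι) (x : ZMod (qs i)) :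
    m1 (pf (rn qs) mu 1 N) i x = cm mu 1 N (qs i) x.val := by
  classical
  have h1 : m1 (pf (rn qs) mu 1 N) i x = SM N (fun n => mu n * if rn qs i n = x then 1 else 0) := by
    unfold m1
    have h2 : ∀ y : ∀ i, ZMod (qs i), (if y i = x then pf (rn qs) mu 1 N y else 0) =
        pf (rn qs) mu 1 N y * (if y i = x then 1 else 0) := fun y => by split_ifs <;> simp
    rw [Finset.sum_congr rfl fun y _ => h2 y, sum_pf]
  rw [h1]
  unfold SM H599.cm
  refine sum_congr rfl fun j _ => ?_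
  have h3 : rn qs i (1 + j) = x ↔ (1 + j) % qs i = x.val := by
    unfold H860.rn
    constructor
    · intro h
      rw [← h, ZMod.val_natCast]
    · intro h
      have h4 : ((x.val : ℕ) : ZMod (qs i)) = x := ZMod.natCast_zmod_val x
      rw [← h4, ← h, ZMod.natCast_mod]
  beta_reduce
  by_cases h : (1 + j) % qs i = x.val
  · rw [if_pos (h3.2 h), if_pos h, mul_one]
  · rw [if_neg fun h' => h (h3.1 h'), if_neg h, mul_zero]

end

/-- a cell of the state -/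
structure CellSt (q : H362.FP) (W : Finset ℕ) (f : ℤ[X]) (N : ℕ) (G : ℤ → ℝ) (mu : ℕ → ℝ)
    (Dm Lq : ℝ) (q0 : ℕ) (w : ZMod q0) (z h0 : ℕ) : Prop where
  hG : ∀ n : ℤ, G n = if 1 ≤ n then (N : ℝ) * mu n.toNat else 0
  one : H362.AtF W q f N mu Dm
  ql : H362.QL W q N mu Dm Lq
  hW : ∀ p ∈ W, p.Prime
  hq0 : ∀ p ∈ W, ¬ p ∣ q0
  q01 : 1 ≤ q0
  zN : z + h0 ≤ N
  hN : N ≤ 100 * h0
  ma : (h0 : ℝ) / 2 ≤ q0 * cmass G q0 w z h0

/-- the numbers of the laws: `qs` the sites, `QM` bounds the top moduli, `Ds` the thin cells -/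
structure LawNum {ι : Type} [Fintype ι] (q : H362.FP) (W : Finset ℕ) (N h0 q0 : ℕ) (Dm Lq P : ℝ)
    (qs sc : ι → ℕ) (ns : ℕ) (γ A0 Λ Ds del QM : ℝ) : Prop where
  pin : H743.PinNum γ A0 q.g q.be q.ga W qs sc ns Λ 0
  D100 : Real.log 100 ≤ Dm
  Y : ∀ p ∈ W, (p : ℝ) ≤ Real.exp (q.C1 * Real.log P)
  P1 : 1 ≤ P
  Ds0 : 0 ≤ Ds
  thin : 32 * Dm + Real.log 2 + Ds + 1 ≤ q.g / (2560 * q.C1) * P
  NP : Real.exp (P / 4) ≤ N
  VP : Real.exp Lq * (2 * Real.exp (P / 4)) ≤ h0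
  Dm2 : 2 * Real.exp ((1 - q.g / 10) * Real.log P) ≤ Dm
  del0 : 0 < del
  del1 : del ≤ 1
  delB : del * ∑ j, (qs j : ℝ) ^ (-q.g) * (1 + H743.Lq q.g qs j) ≤ 1
  DsΛ : Real.log 2 + Real.log (1 / del) + 6 * q.g * Λ ≤ Ds
  DM : (q0 : ℝ) * QM * Real.exp (3 * Λ) ≤ Real.exp Lq

/-- the constant of the window -/
noncomputable def cW (q : H362.FP) (N h0 : ℕ) : ℝ :=
  q.be * ((Real.log N - Real.log (h0 : ℝ)) + 1)

/-- the constant `κ` of a top modulus -/
noncomputable def kapF (q : H362.FP) (N h0 q0 : ℕ) (τ : ℝ) (d : ℕ) : ℝ :=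
  Real.exp (q.be * Real.log q0 + cW q N h0 + Real.log 2) * (d : ℝ) ^ τ

section
variable {q : H362.FP} {W : Finset ℕ} {f : ℤ[X]} {N : ℕ} {G : ℤ → ℝ} {mu : ℕ → ℝ} {Dm Lq : ℝ}
  {q0 : ℕ} {w : ZMod q0} {z h0 : ℕ}

theorem CellSt.N0 (h : CellSt q W f N G mu Dm Lq q0 w z h0) : (0 : ℝ) < N := by
  exact_mod_cast h.one.law.pos

theorem CellSt.h00 (h : CellSt q W f N G mu Dm Lq q0 w z h0) : 0 < h0 := by
  have := h.one.law.pos
  have := h.hN
  omega

theorem CellSt.cell_eq (h : CellSt q W f N G mu Dm Lq q0 w z h0) :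
    cell q0 w (z : ℤ) h0 = cellZ q0 w.val (z + 1) (z + h0) := by
  have : NeZero q0 := ⟨by have := h.q01; omega⟩
  exact cellZ_eq w z h0

theorem CellSt.cmass_eq (h : CellSt q W f N G mu Dm Lq q0 w z h0) :
    cmass G q0 w z h0 = N * ms mu N (cl q0 w.val (z + 1) (z + h0)) := by
  have : NeZero q0 := ⟨by have := h.q01; omega⟩
  exact H359.cmass_eq h.hG w h.zN

theorem CellSt.ms_pos (h : CellSt q W f N G mu Dm Lq q0 w z h0) :
    0 < ms mu N (cl q0 w.val (z + 1) (z + h0)) := by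
  have h1 := h.ma
  rw [h.cmass_eq] at h1
  have h2 : (0 : ℝ) < h0 := by exact_mod_cast h.h00
  rcases (H945.ms_nonneg h.one.law (cl q0 w.val (z + 1) (z + h0))).eq_or_lt with h3 | h3
  · rw [← h3, mul_zero, mul_zero] at h1
    linarith
  · exact h3

theorem CellSt.dens (h : CellSt q W f N G mu Dm Lq q0 w z h0) :
    -Real.log 2 ≤ Real.log (q0 * ms mu N (cl q0 w.val (z + 1) (z + h0)) * N / (h0 : ℝ)) := by
  have h2 : (0 : ℝ) < h0 := by exact_mod_cast h.h00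
  have h1 := h.ma
  rw [h.cmass_eq] at h1
  have h3 : (1 / 2 : ℝ) ≤ q0 * ms mu N (cl q0 w.val (z + 1) (z + h0)) * N / (h0 : ℝ) := by
    rw [le_div_iff₀ h2]
    calc 1 / 2 * (h0 : ℝ) = (h0 : ℝ) / 2 := by ring
      _ ≤ _ := h1
      _ = _ := by ring
  have h4 := Real.log_le_log (by norm_num) h3
  rw [one_div, Real.log_inv] at h4
  exact h4

/-- (QL) at the laws of all cells of density at least `exp (-Ds)` of the window -/
theorem qlc_cell {g C1 : ℝ} (hg : 0 < g) (hg1 : g ≤ 1) (hC1 : 1 ≤ C1) :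
    ∃ l0 : ℝ, ∀ {ι : Type} [Fintype ι] {q : H362.FP} {W : Finset ℕ} {f : ℤ[X]} {N : ℕ}
      {G : ℤ → ℝ} {mu : ℕ → ℝ} {Dm Lq : ℝ} {q0 : ℕ} {w : ZMod q0} {z h0 : ℕ} {P : ℝ}
      {qs sc : ι → ℕ} {ns : ℕ} {γ A0 Λ Ds del QM : ℝ}, q.g = g → q.C1 = C1 → l0 ≤ Real.log P →
      CellSt q W f N G mu Dm Lq q0 w z h0 →
      LawNum q W N h0 q0 Dm Lq P qs sc ns γ A0 Λ Ds del QM →
      H743.QLc mu N W (fun p => (p : ℝ) ^ (-q.g)) (H743.cstF W q.be q.ga (cW q N h0))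
        (Real.exp Lq) Ds (h0 : ℝ) (z + 1) (z + h0) := by
  obtain ⟨l0, hl0⟩ := H743.qlc_thin hg hg1 hC1
  refine ⟨l0, ?_⟩
  intro ι _ q W f N G mu Dm Lq q0 w z h0 P qs sc ns γ A0 Λ Ds del QM eg eC hl H L
  subst eg eC
  have hP : 0 < P := lt_of_lt_of_le one_pos L.P1
  have hN0 := H.N0
  have hh0 : (0 : ℝ) < h0 := by exact_mod_cast H.h00
  have eV : z + h0 + 1 - (z + 1) = h0 := by omega
  have hDm0 : 0 ≤ Dm := le_trans (Real.log_nonneg (by norm_num)) L.D100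
  have hNh : (N : ℝ) ≤ 100 * h0 := by exact_mod_cast H.hN
  have h1 := qlc_of_ql (u := z + 1) (v := z + h0) H.hW H.ql H.one.law H.one.nn (by omega) H.zN
    hDm0 (by
      rw [eV]
      refine hNh.trans (mul_le_mul_of_nonneg_right ?_ hh0.le)
      calc (100 : ℝ) = Real.exp (Real.log 100) := (Real.exp_log (by norm_num)).symm
        _ ≤ _ := Real.exp_le_exp.2 L.D100)
  rw [eV] at h1
  have hbe := L.pin.be0
  have hcw : 0 ≤ cW q N h0 := by
    unfold cW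
    have h2 : Real.log (h0 : ℝ) ≤ Real.log N := by
      refine Real.log_le_log hh0 ?_
      have := H.zN
      exact_mod_cast (by omega : h0 ≤ N)
    have : 0 ≤ Real.log N - Real.log (h0 : ℝ) + 1 := by linarith
    exact mul_nonneg hbe this
  have h2 := hl0 (Real.log P) hl mu N H.one.law H.one.nn W H.hW L.Y H.one.atom
    (H743.cstF W q.be q.ga (cW q N h0)) (Real.exp Lq) Dm Ds (32 * Dm + Real.log 2) (z + 1)
    (z + h0) (by omega) (by
      have := Real.log_nonneg (by norm_num : (1 : ℝ) ≤ 2)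
      linarith) L.Ds0
    (fun n => by
      rw [le_div_iff₀ hN0, Real.exp_add, Real.exp_log (by norm_num)]
      have h3 := H.one.cap n
      linarith) (by
      rw [Real.exp_log hP]
      exact L.thin) (by
      rw [Real.exp_log hP]
      exact L.NP) (by
      rw [Real.exp_log hP, eV]
      exact L.VP) L.Dm2 (fun D hD _ => H743.cstF_nonneg hbe hcw hD)
  rw [eV] at h2
  exact h2 h1

/-- **`ThickG` of all classes of all top moduli of a cell of the state** (the slot of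
`H635.sideIn_of`) -/
theorem thickG_cell {g C1 : ℝ} (hg : 0 < g) (hg1 : g ≤ 1) (hC1 : 1 ≤ C1) :
    ∃ l0 : ℝ, ∀ {ι : Type} [Fintype ι] [DecidableEq ι] {q : H362.FP} {W : Finset ℕ} {f : ℤ[X]}
      {N : ℕ} {G : ℤ → ℝ} {mu : ℕ → ℝ} {Dm Lq : ℝ} {q0 : ℕ} {w : ZMod q0} {z h0 : ℕ} {P : ℝ}
      {qs sc : ι → ℕ} [∀ i, NeZero (qs i)] {ns : ℕ} {γ A0 Λ Ds del QM : ℝ}, q.g = g → q.C1 = C1 →
      l0 ≤ Real.log P → CellSt q W f N G mu Dm Lq q0 w z h0 →
      LawNum q W N h0 q0 Dm Lq P qs sc ns γ A0 Λ Ds del QM →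
      ∀ {τ : ℝ}, q.be ≤ τ → ∀ d : ℕ, 1 ≤ d → (d : ℝ) ≤ QM →
      (∀ p ∈ d.primeFactors, ¬ p ∣ q0 ∧ (∀ i, qs i ≠ p) ∧
        (p ∈ W → (p : ℝ) ^ (-q.ga) ≤ (τ - q.be) * Real.log p)) →
      ∀ z' : ℕ, ∑ n ∈ cell q0 w (z : ℤ) h0,
        fcl (fun n => G n / cmass G q0 w z h0) d (z' : ℤ) n ≠ 0 →
      ThickG (Real.log 2) γ A0 (fun i (x : ZMod (qs i)) => cm mu 1 N (qs i) x.val)
        (H743.uq (V := fun i => ZMod (qs i)) qs)
        (lawc (redZ qs) (cell q0 w (z : ℤ) h0)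
          (fcl (fun n => G n / cmass G q0 w z h0) d (z' : ℤ))) sc ns
        (fun i => Real.log (qs i)) Λ (H743.Lq q.g qs) (H743.Aq q.g qs)
        (H743.αq q.be q.ga qs) (fun i => (qs i : ℝ) ^ (-q.g)) 0 del
        (d * ∑ n ∈ cell q0 w (z : ℤ) h0,
          fcl (fun n => G n / cmass G q0 w z h0) d (z' : ℤ) n) (kapF q N h0 q0 τ d) := by
  obtain ⟨l0, hl0⟩ := qlc_cell hg hg1 hC1
  refine ⟨l0, ?_⟩
  intro ι _ _ q W f N G mu Dm Lq q0 w z h0 P qs sc _ ns γ A0 Λ Ds del QM eg eC hl H L τ hτ d hd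
    hdQ hdp z' hz'
  have hQL := hl0 eg eC hl H L
  have : NeZero q0 := ⟨by have := H.q01; omega⟩
  have hh0 : (0 : ℝ) < h0 := by exact_mod_cast H.h00
  have hN0 := H.N0
  have hbe := L.pin.be0
  have hcw : 0 ≤ cW q N h0 := by
    unfold cW
    have h2 : Real.log (h0 : ℝ) ≤ Real.log N := by
      refine Real.log_le_log hh0 ?_
      have := H.zN
      exact_mod_cast (by omega : h0 ≤ N)
    have : 0 ≤ Real.log N - Real.log (h0 : ℝ) + 1 := by linarith
    exact mul_nonneg hbe this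
  have hl2 : 0 ≤ Real.log 2 := Real.log_nonneg (by norm_num)
  have hcopd : Nat.Coprime q0 d := by
    refine Nat.Coprime.symm (Nat.coprime_of_dvd fun p hp hpd hpq => ?_)
    exact (hdp p (Nat.mem_primeFactors.2 ⟨hp, hpd, by omega⟩)).1 hpq
  have hqD : ∀ i, (qs i).Coprime (q0 * d) := by
    intro i
    have hp := L.pin.hW _ (L.pin.qW i)
    refine Nat.Coprime.mul_right ?_ ?_
    · exact (hp.coprime_iff_not_dvd).2 (H.hq0 _ (L.pin.qW i))
    · refine (hp.coprime_iff_not_dvd).2 fun h => ?_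
      exact (hdp (qs i) (Nat.mem_primeFactors.2 ⟨hp, h, by omega⟩)).2.1 i rfl
  have hκ := kap_le (be := q.be) (ga := q.ga) (cw := cW q N h0) (τ := τ) (hh := Real.log 2)
    H.hW H.q01 hd H.hq0 (fun p hp hpd =>
      (hdp p (Nat.mem_primeFactors.2 ⟨H.hW p hp, hpd, by omega⟩)).2.2 hp) hτ
  have hDM : (q0 : ℝ) * d * Real.exp (3 * Λ) ≤ Real.exp Lq := by
    refine le_trans ?_ L.DM
    refine mul_le_mul_of_nonneg_right ?_ (Real.exp_pos _).le
    exact mul_le_mul_of_nonneg_left hdQ (Nat.cast_nonneg _)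
  rw [H.cell_eq] at hz' ⊢
  have hmain := thickG_side (ι := ι) (V := fun i => ZMod (qs i)) (q := qs) (red := redZ qs)
    (f := fun n => G n / cmass G q0 w z h0) (sc := sc) (ns := ns) (Λ := Λ) (γ := γ) (A0 := A0)
    (g := q.g) (be := q.be) (ga := q.ga) (a := 0) (cw := cW q N h0) (Ds := Ds) (del := del)
    (Vv := (h0 : ℝ)) (DM := Real.exp Lq) (hh := Real.log 2) (κ := kapF q N h0 q0 τ d)
    H.hG H.one.law H.one.nn (ZMod.val_lt w) (by omega) H.zN H.ms_pos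
    (fun n => by rw [H.cmass_eq]) hd hcopd hqD
    (fun i n m => by rw [red_rn, red_rn]; exact rn_res i n m) (fun i => ZMod.card (qs i)) L.pin
    hcw hQL H.one.atom hh0 hl2 H.dens hκ L.del0 L.del1 L.delB hDM L.DsΛ (z' : ℤ) hz'
  have e1 : (fun (i : ι) (n : ℕ) => redZ qs (n : ℤ) i) = rn qs := by
    funext i n
    exact red_rn i n
  have e2 : (fun i => m1 (pf (fun (i : ι) (n : ℕ) => redZ qs (n : ℤ) i) mu 1 N) i) =
      fun i (x : ZMod (qs i)) => cm mu 1 N (qs i) x.val := by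
    funext i x
    rw [e1]
    exact m1_rn mu N i x
  rw [e2] at hmain
  exact hmain

end

end Vale.Agent.P042.H168
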