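import Vale.Agent.P042.H743.PinF
import Vale.Agent.P042.H635.NvE
import Vale.Agent.P042.H359.Bridge

/-!
# P042: the law of a class of a cell, integer side and product side
-/

set_option autoImplicit false
set_option linter.unusedSectionVars false

namespace Vale.Agent.P042.H168

open Finset Vale.Agent.P042.H461 Vale.Agent.P042.H858
open Vale.Agent.P042.H599 (cm Law)
open Vale.Agent.P042.H945 (SM kl2 klc ms cl)
open Vale.Agent.P042.H779 (marg m1 phi)
open Vale.Agent.P042.H779.Ab (ce gdw Di Ref At)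
open Vale.Agent.P042.H779.Ab.Ll (len ThickG)
open Vale.Agent.P042.H635 (lawc fcl)
open Vale.Agent.P042.H359 (cellZ)

section
variable {ι : Type} [Fintype ι] [DecidableEq ι] {V : ι → Type} [∀ i, Fintype (V i)]
  [∀ i, DecidableEq (V i)] {N : ℕ} {mu : ℕ → ℝ} {G f : ℤ → ℝ}

/-- the image law at a point -/
theorem pf_apply (r : ∀ i, ℕ → V i) (nu : ℕ → ℝ) (N : ℕ) (x : ∀ i, V i) :
    pf r nu 1 N x = SM N (fun n => nu n * (if (fun i => r i n) = x then 1 else 0)) := by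
  rw [← sum_pf r nu N (fun y => if y = x then 1 else 0)]
  simp

/-- a class modulo `d` of a cell modulo `D0` is a cell modulo `D0 * d` -/
theorem class_iff {D0 w0 d : ℕ} {z n a : ℤ} (hcop : Nat.Coprime D0 d)
    (ha0 : a % (D0 : ℤ) = w0) (hz : a ≡ z [ZMOD (d : ℤ)]) :
    (n % (D0 : ℤ) = w0 ∧ n ≡ z [ZMOD (d : ℤ)]) ↔
      n % ((D0 * d : ℕ) : ℤ) = a % ((D0 * d : ℕ) : ℤ) := by
  have h1 : (n ≡ a [ZMOD (D0 : ℤ)] ∧ n ≡ a [ZMOD (d : ℤ)]) ↔ n ≡ a [ZMOD (D0 : ℤ) * d] := by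
    refine Int.modEq_and_modEq_iff_modEq_mul ?_
    simpa using hcop
  constructor
  · rintro ⟨h2, h3⟩
    have h4 := h1.1 ⟨by show n % _ = a % _; rw [h2, ha0], h3.trans hz.symm⟩
    have h5 : n % ((D0 : ℤ) * d) = a % ((D0 : ℤ) * d) := h4
    push_cast
    exact h5
  · intro h2
    push_cast at h2
    obtain ⟨h3, h4⟩ := h1.2 h2
    exact ⟨by rw [← ha0]; exact h3, h4.trans hz⟩

/-- **dictionary**: the law of the weight `fcl f d z` on a cell of the window is the image of a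
cell of the state -/
theorem lawc_cell (hG : ∀ n : ℤ, G n = if 1 ≤ n then (N : ℝ) * mu n.toNat else 0)
    (hmu : Law mu 1 N) {D0 w0 u v d : ℕ} {z : ℤ} {t : ℝ} (hw : w0 < D0) (hd : 1 ≤ d) (hu : 1 ≤ u)
    (hv : v ≤ N) (hcop : Nat.Coprime D0 d) (hf : ∀ n, f n = t * G n) (red : ℤ → ∀ i, V i)
    (h0 : ∑ n ∈ cellZ D0 w0 u v, fcl f d z n ≠ 0) :
    ∃ z' : ℕ, z' < D0 * d ∧ z' % D0 = w0 ∧ 0 < ms mu N (cl (D0 * d) z' u v) ∧
      lawc red (cellZ D0 w0 u v) (fcl f d z) =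
        pf (fun i (n : ℕ) => red (n : ℤ) i) (H945.rst mu N (cl (D0 * d) z' u v)) 1 N ∧
      ∑ n ∈ cellZ D0 w0 u v, fcl f d z n = t * (N * ms mu N (cl (D0 * d) z' u v)) := by
  classical
  have hD0 : 0 < D0 := lt_of_le_of_lt (Nat.zero_le _) hw
  have hDd : 0 < D0 * d := Nat.mul_pos hD0 hd
  obtain ⟨a, haS, ha⟩ := Finset.exists_ne_zero_of_sum_ne_zero h0
  have haz : a ≡ z [ZMOD (d : ℤ)] := by
    by_contra hcon
    unfold fcl at ha
    rw [if_neg hcon] at ha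
    exact ha rfl
  unfold cellZ at haS
  obtain ⟨ha1, ha2⟩ := mem_filter.1 haS
  obtain ⟨ha3, ha4⟩ := mem_Icc.1 ha1
  obtain ⟨a', rfl⟩ : ∃ a' : ℕ, a = a' := ⟨a.toNat, (Int.toNat_of_nonneg (by omega)).symm⟩
  set z' := a' % (D0 * d) with hz'
  have hz'l : z' < D0 * d := Nat.mod_lt _ hDd
  have hz'0 : z' % D0 = w0 := by
    have h1 : z' % D0 = a' % D0 := by
      rw [hz']; exact Nat.mod_mul_right_mod _ _ _
    have h2 : a' % D0 = w0 := by exact_mod_cast ha2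
    rw [h1, h2]
  have hiff : ∀ n : ℤ, (n % (D0 : ℤ) = w0 ∧ n ≡ z [ZMOD (d : ℤ)]) ↔
      n % ((D0 * d : ℕ) : ℤ) = (z' : ℤ) := by
    intro n
    rw [class_iff (a := (a' : ℤ)) hcop ha2 haz, hz']
    push_cast
    rfl
  -- sums over the class
  have hsum : ∀ (Cd : ℤ → Prop) [DecidablePred Cd],
      ∑ n ∈ cellZ D0 w0 u v, (if Cd n then fcl f d z n else 0) =
        t * (N * SM N (fun n => if cl (D0 * d) z' u v n ∧ Cd (n : ℤ) then mu n else 0)) := by
    intro Cd _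
    have e1 : ∑ n ∈ cellZ D0 w0 u v, (if Cd n then fcl f d z n else 0) =
        t * ∑ n ∈ cellZ (D0 * d) z' u v, (if Cd n then G n else 0) := by
      have e2 : cellZ (D0 * d) z' u v =
          (cellZ D0 w0 u v).filter (fun n => n ≡ z [ZMOD (d : ℤ)]) := by
        ext n
        simp only [cellZ, mem_filter]
        rw [and_assoc, hiff n]
      rw [e2, Finset.sum_filter, mul_sum]
      refine sum_congr rfl fun n _ => ?_
      unfold fcl
      by_cases h1 : n ≡ z [ZMOD (d : ℤ)]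
      · by_cases h2 : Cd n
        · rw [if_pos h2, if_pos h1, if_pos h1, if_pos h2, hf]
        · rw [if_neg h2, if_pos h1, if_neg h2, mul_zero]
      · by_cases h2 : Cd n
        · rw [if_pos h2, if_neg h1, if_neg h1, mul_zero]
        · rw [if_neg h2, if_neg h1, mul_zero]
    rw [e1, H359.sum_cellZ hG hu hv Cd]
    unfold ms
    congr 3
    funext n
    by_cases h1 : cl (D0 * d) z' u v n ∧ Cd (n : ℤ)
    · rw [if_pos h1, if_pos h1]
    · rw [if_neg h1, if_neg h1]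
  have htot : ∑ n ∈ cellZ D0 w0 u v, fcl f d z n =
      t * (N * ms mu N (cl (D0 * d) z' u v)) := by
    have h1 := hsum (fun _ => True)
    simp only [if_true, and_true] at h1
    rw [h1]
    rfl
  have hms : 0 < ms mu N (cl (D0 * d) z' u v) := by
    rcases (H945.ms_nonneg hmu (cl (D0 * d) z' u v)).eq_or_lt with h | h
    · rw [htot, ← h, mul_zero, mul_zero] at h0
      exact absurd rfl h0
    · exact h
  refine ⟨z', hz'l, hz'0, hms, ?_, htot⟩
  funext x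
  have h1 := hsum (fun n => red n = x)
  have h2 : lawc red (cellZ D0 w0 u v) (fcl f d z) x =
      (t * (N * SM N (fun n => if cl (D0 * d) z' u v n ∧ red (n : ℤ) = x then mu n else 0))) /
        (t * (N * ms mu N (cl (D0 * d) z' u v))) := by
    unfold lawc
    rw [htot, Finset.sum_filter, h1]
  have ht : t ≠ 0 := by
    rintro rfl
    rw [htot, zero_mul] at h0
    exact h0 rfl
  have hN : (N : ℝ) ≠ 0 := by
    intro h
    rw [htot, h, zero_mul, mul_zero] at h0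
    exact h0 rfl
  rw [h2, pf_apply, mul_div_mul_left _ _ ht, mul_div_mul_left _ _ hN]
  unfold SM
  rw [Finset.sum_div]
  refine sum_congr rfl fun i _ => ?_
  beta_reduce
  by_cases h3 : cl (D0 * d) z' u v (1 + i)
  · rw [H945.rst_val h3]
    have h5 : ((fun i_1 => red (((1 + i : ℕ)) : ℤ) i_1) = x) = (red (((1 + i : ℕ)) : ℤ) = x) := rfl
    by_cases h4 : red (((1 + i : ℕ)) : ℤ) = x
    · rw [if_pos ⟨h3, h4⟩, if_pos (by rw [h5]; exact h4), mul_one]
    · rw [if_neg fun h => h4 h.2, if_neg (by rw [h5]; exact h4), mul_zero, zero_div]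
  · rw [if_neg fun h => h3 h.1, H945.rst_val0 h3, zero_mul, zero_div]

variable {q : ι → ℕ} {D0 w0 d u v : ℕ} {W : Finset ℕ} {DM Ds Vv : ℝ} {γ A0 g be ga : ℝ}
  {sc : ι → ℕ} {ns : ℕ} {Λ a del : ℝ} {red : ℤ → ∀ i, V i}

/-- **`ThickG` for the class `z mod d` of a cell, literally the hypothesis of `H635.hE_side`**
(`f` = the weight `G` on the cell `(D0, w0)` of the window `[u, v]`, normalised to mass one) -/
theorem thickG_side (hG : ∀ n : ℤ, G n = if 1 ≤ n then (N : ℝ) * mu n.toNat else 0)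
    (law : Law mu 1 N) (nn : ∀ n, 0 ≤ mu n) (hw : w0 < D0) (hu : 1 ≤ u) (hv : v ≤ N)
    (hm0 : 0 < ms mu N (cl D0 w0 u v))
    (hf : ∀ n, f n = G n / (N * ms mu N (cl D0 w0 u v))) (hd : 1 ≤ d)
    (hcop : Nat.Coprime D0 d) (hqD : ∀ i, (q i).Coprime (D0 * d))
    (hres : ∀ (i : ι) (n m : ℕ), red (n : ℤ) i = red (m : ℤ) i ↔ n ≡ m [MOD q i])
    (hcard : ∀ i, Fintype.card (V i) = q i)
    (hN : H743.PinNum γ A0 g be ga W q sc ns Λ a) {cw : ℝ} (hcw : 0 ≤ cw)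
    (hQL : H743.QLc mu N W (fun p => (p : ℝ) ^ (-g)) (H743.cstF W be ga cw) DM Ds Vv u v)
    (atom : ∀ p ∈ W, ∀ a, cm mu 1 N p a = 0 ∨ (p : ℝ) ^ (-g) / (4 * p) ≤ cm mu 1 N p a)
    (hV : 0 < Vv) {hh κ : ℝ} (hh0 : 0 ≤ hh)
    (hdens : -hh ≤ Real.log (D0 * ms mu N (cl D0 w0 u v) * N / Vv))
    (hκ : Real.exp (H743.cstF W be ga cw (D0 * d) + hh) ≤ κ) (d0 : 0 < del) (d1 : del ≤ 1)
    (dB : del * ∑ j, (q j : ℝ) ^ (-g) * (1 + H743.Lq g q j) ≤ 1)
    (hDM : (D0 : ℝ) * d * Real.exp (3 * Λ) ≤ DM)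
    (hDs : hh + Real.log (1 / del) + 6 * g * Λ ≤ Ds) (z : ℤ)
    (h0 : ∑ n ∈ cellZ D0 w0 u v, fcl f d z n ≠ 0) :
    ThickG (Real.log 2) γ A0 (fun i => m1 (pf (fun i (n : ℕ) => red (n : ℤ) i) mu 1 N) i)
      (H743.uq (V := V) q) (lawc red (cellZ D0 w0 u v) (fcl f d z)) sc ns
      (fun i => Real.log (q i)) Λ (H743.Lq g q) (H743.Aq g q) (H743.αq be ga q)
      (fun i => (q i : ℝ) ^ (-g)) a del (d * ∑ n ∈ cellZ D0 w0 u v, fcl f d z n) κ := by
  have hNN : (0 : ℝ) < N := by exact_mod_cast law.pos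
  have hD0 : 1 ≤ D0 := by omega
  obtain ⟨z', hz', -, h1, h2, h3⟩ := lawc_cell (t := 1 / (N * ms mu N (cl D0 w0 u v))) hG law hw
    hd hu hv hcop (fun n => by rw [hf]; ring) red h0
  have h4 : d * ∑ n ∈ cellZ D0 w0 u v, fcl f d z n =
      d * ms mu N (cl (D0 * d) z' u v) / ms mu N (cl D0 w0 u v) := by
    rw [h3]
    have := hm0.ne'
    field_simp
  have hp : ∀ i, (q i).Prime := fun i => hN.hW _ (hN.qW i)
  have B : H743.CellB q (fun i (n : ℕ) => red (n : ℤ) i) mu N W (fun p => (p : ℝ) ^ (-g))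
      (D0 * d) z' u v (fun i => (q i : ℝ) ^ (-g)) :=
    { law := law
      nn := nn
      q2 := fun i => (hp i).two_le
      pc := fun i j hij => (Nat.coprime_primes (hp i) (hp j)).2 fun h => hij (hN.inj h)
      Wpos := fun p hpW => (hN.hW p hpW).pos
      c0 := fun p _ => Real.rpow_nonneg (Nat.cast_nonneg _) _
      lam0 := fun i => Real.rpow_nonneg (Nat.cast_nonneg _) _
      lamc := fun i => Or.inr ⟨hN.qW i, le_rfl⟩
      res := hres
      cop := hqD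
      D1 := Nat.mul_pos hD0 hd
      m0 := h1 }
  rw [h2, h4]
  exact H743.thickG_of hN hd B hcard hD0 hm0 hz' hcw hQL atom hV hh0 hdens hκ d0 d1 dB hDM hDs

/-- the constant `κ` of a class modulo `d` as a power of `d` -/
theorem kap_le {W : Finset ℕ} (hW : ∀ p ∈ W, p.Prime) {be ga cw τ hh : ℝ} {D0 d : ℕ}
    (hD0 : 1 ≤ D0) (hd : 1 ≤ d) (hcop : ∀ p ∈ W, ¬ p ∣ D0)
    (hτ : ∀ p ∈ W, p ∣ d → (p : ℝ) ^ (-ga) ≤ (τ - be) * Real.log p) (hbτ : be ≤ τ) :
    Real.exp (H743.cstF W be ga cw (D0 * d) + hh) ≤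
      Real.exp (be * Real.log D0 + cw + hh) * (d : ℝ) ^ τ := by
  have hdR : (0 : ℝ) < d := by exact_mod_cast hd
  have hD0R : (0 : ℝ) < D0 := by exact_mod_cast hD0
  rw [Real.rpow_def_of_pos hdR, ← Real.exp_add, Real.exp_le_exp]
  unfold H743.cstF
  have h1 : Real.log ((D0 * d : ℕ) : ℝ) = Real.log D0 + Real.log d := by
    push_cast
    exact Real.log_mul hD0R.ne' hdR.ne'
  have h2 : W.filter (fun p => p ∣ D0 * d) = W.filter (fun p => p ∣ d) := by
    refine Finset.filter_congr fun p hp => ?_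
    rw [(hW p hp).dvd_mul]
    exact ⟨fun h => h.resolve_left (hcop p hp), Or.inr⟩
  have h3 : ∑ p ∈ W with p ∣ d, (p : ℝ) ^ (-ga) ≤ (τ - be) * Real.log d := by
    calc ∑ p ∈ W with p ∣ d, (p : ℝ) ^ (-ga) ≤ ∑ p ∈ W with p ∣ d, (τ - be) * Real.log p :=
          Finset.sum_le_sum fun p hp => hτ p (Finset.mem_filter.1 hp).1 (Finset.mem_filter.1 hp).2
      _ = (τ - be) * ∑ p ∈ W with p ∣ d, Real.log p := by rw [mul_sum]
      _ ≤ (τ - be) * Real.log d :=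
        mul_le_mul_of_nonneg_left (H945.sum_log_dvd hW hd) (by linarith)
  rw [h1, h2]
  nlinarith

end

end Vale.Agent.P042.H168
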